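import Mathlib
import Vale.Agent.H96.P171.Meas.AeNodup
import Vale.Agent.H96.P171.Meas.Box
import Vale.Agent.H96.P171.Meas.Mono
import Vale.Agent.H96.P171.Meas.Translate
import Vale.Agent.H96.P171.Meas.LMeasRest
import Vale.Agent.H96.P171.Meas.Union
import Vale.Agent.H96.P171.Meas.IUnion
import Vale.Agent.H96.P171.Meas.Holder
import Vale.Agent.H96.P171.Meas.Linear
import Vale.Agent.H96.P171.Meas.LMeasBw

/-!
# P171 moonshot, measure layer: aggregator (imports every file of `Meas/`)
-/
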